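import Vale.Agent.P095.Nonunital.LocallyFinite

/-! # P095: countable locally finite groups acting on arbitrary separable `A` -/

theorem Vale.Agent.Results.P095.LocallyFiniteGroupsAllA.result (A : Type) [NonUnitalCStarAlgebra A]
    [TopologicalSpace.SeparableSpace A] (ω : Ultrafilter ℕ)
    (hω : (ω : Filter ℕ) ≤ Filter.cofinite) (G : Type) [Group G] [Countable G]
    (hG : ∀ S : Finset G, ((Subgroup.closure (S : Set G) : Subgroup G) : Set G).Finite)
    (α : G →* (A ≃⋆ₐ[ℂ] A)) (h : Vale.P095.Nonunital.CommutatorsFull A ω) :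
    Vale.P095.Nonunital.HasFixedDimDropHomFA ω (fun g a => α g a) :=
  Vale.P095.Nonunital.fixed_dimDrop_FA hω hG α h
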