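import Vale.Agent.P095.Nonunital.McDuffFA
import Vale.Agent.P095.Nonunital.McDuffStatement

/-! # P095 — local equivariant uniform McDuff property for nonunital algebras -/

theorem Vale.Agent.Results.P095.NonunitalMcDuff.result (A : Type) [NonUnitalCStarAlgebra A]
    [TopologicalSpace.SeparableSpace A] (ω : Ultrafilter ℕ)
    (hω : (ω : Filter ℕ) ≤ Filter.cofinite) (G : Type) [Group G] [Countable G]
    (hG : Vale.P095.Tracial.IsFolner G) (α : G →* (A ≃⋆ₐ[ℂ] A))
    (h : Vale.P095.Nonunital.CommutatorsFull A ω) :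
    Vale.P095.Nonunital.HasLocalMcDuff (fun g a => α g a) :=
  fun D P S _ hε => Vale.P095.Nonunital.exists_mcduff_seq hω α h hG D P S hε
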