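import Vale.Agent.P095.NU.Assemble
import Vale.Agent.P095.NU.CommExp
import Vale.Agent.P095.NU.Compare
import Vale.Agent.P095.NU.Flips
import Vale.Agent.P095.NU.Intertwine
import Vale.Agent.P095.NU.Lower
import Vale.Agent.P095.NU.NoChar
import Vale.Agent.P095.NU.Pure
import Vale.Agent.P095.NU.Rep
import Vale.Agent.P095.NU.Stages
import Vale.Agent.P095.NU.Traced
import Vale.Agent.P095.NU.Unperf
import Vale.Agent.P095.NU.Upper
import Vale.Agent.P095.NU.WeightExt

/-!
# P095: Szabó's Conjecture A

Every action of a countable amenable group on a separable simple nuclear `Z`-stable C⋆-algebra,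
unital or not, is equivariantly `Z`-stable.
-/

open Vale.P095

theorem Vale.Agent.Results.P095.SzaboConjectureA.result :
    ∃ (Z : Type) (_ : CStarAlgebra Z), Equi.IsJiangSuAlg Z ∧ NU.ConjectureA Z :=
  NU.exists_conjectureA NU.repNU NU.commExp (NU.upperNU_of NU.weightExt NU.cutCPAP)
    (NU.lowerNU_of NU.weightExt NU.cutCPAP) NU.unperfNU NU.weightCompare NU.normCompare
    NU.tracedSI NU.pureSI NU.stages NU.flips NU.intertwineNU NU.noCharNU
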